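import Vale.Agent.P319.A.Main

open Vale.Agent.P319.St Turing Polynomial

theorem Vale.Agent.Results.P319.B_cond.result (C0 : ℕ)
    (h : ∀ l p : ℕ, l.Prime → p.Prime → 3 < p → l ≠ p → ∃ r : ℕ, r.Prime ∧ 12 * l ∣ r - 1 ∧
      r ≤ (l * (Nat.log 2 p + 1)) ^ C0 ∧ ¬ ∃ x : ZMod r, x ^ l = (p : ZMod r)) :
    ∃ (fac : ℕ × List ℕ → ℕ × List (List ℕ))
      (M : TM2ComputableInPolyTime (bPair bNat (bList bNat)) (bPair bNat (bList (bList bNat))) fac),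
      (∀ k, Finite (M.tm.Γ k)) ∧ ∀ (p : ℕ) (f : List ℕ), p.Prime → poly p f ≠ 0 →
        poly p f = C ((fac (p, f)).1 : ZMod p) * ((fac (p, f)).2.map (poly p)).prod ∧
        ∀ g ∈ (fac (p, f)).2, (poly p g).Monic ∧ Irreducible (poly p g) :=
  Vale.Agent.P319.A.machine h
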