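import Vale.Agent.P319.N.Small

theorem Vale.Agent.Results.P319.C_primes.result :
    ∃ C : ℕ, ∀ l p : ℕ, l.Prime → p.Prime → 3 < p → l ≠ p → ∃ r : ℕ, r.Prime ∧ 12 * l ∣ r - 1 ∧
      r ≤ (l * (Nat.log 2 p + 1)) ^ C ∧ ¬ ∃ x : ZMod r, x ^ l = (p : ZMod r) :=
  Vale.Agent.P319.nt_main
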